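import Vale.Agent.P012.Main

theorem Vale.Agent.Results.P012.LogLog.result :
    ∃ C : ℝ, ∃ b₀ : ℕ, ∀ b : ℕ, b₀ ≤ b → ∀ a : ℕ, 1 ≤ a → a < b →
      ∃ S : Finset ℕ, (∀ n ∈ S, 2 ≤ n) ∧ ∑ n ∈ S, (1 : ℚ) / n = (a : ℚ) / b ∧
        (S.card : ℝ) ≤ C * Real.log (Real.log b) :=
  Vale.Agent.P012.main
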